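import Mathlib.SetTheory.Cardinal.Regular
import Vale.Agent.P307.R2.H229.Tree

/-!
Spread pieces. From the density of isolated types over a large set `X` we obtain a model of size `θ`
over a small closed trace of `X`, *all* of whose subsets of size `ν` (with no bound on their
position) have types isolated by small subsets of the trace: the models grow along a chain of length
`ν⁺`, while `X` is moved by a coherent system of automorphisms.
-/

universe u

open Set Cardinal Function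

namespace Vale.Agent.P307.R2.H950

open H541 H541.PG

theorem exists_gt_succ {ν : Cardinal.{u}} (hν : ℵ₀ ≤ ν) (s : Set (Order.succ ν).ord.ToType)
    (hs : #s ≤ ν) : ∃ x, ∀ y ∈ s, y < x := by
  rw [← not_isCofinal_iff]
  intro h
  have h1 := Order.cof_le h
  rw [Ordinal.cof_toType, (isRegular_succ hν).cof_ord] at h1
  exact absurd (h1.trans hs) (not_le.2 (Order.lt_succ ν))

/-- A stage of the construction: a closed trace `Q` on which the movement is fixed, a small closed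
trace `s`, a model `R` and the movement `f`. -/
structure Stg (C : Type u) where
  Q : Set C
  s : Set C
  R : Set C
  f : Equiv.Perm C

variable {C : Type u} {M : PG C} {X : Set C} {ν θ μ β : Cardinal.{u}}

/-- **Spread pieces.** -/
theorem exists_spread (hν : ℵ₀ ≤ ν) (hνθ : Order.succ ν ≤ θ) (hθμ : θ ≤ μ)
    (Z : Set (Set C)) (hZX : ∀ z ∈ Z, z ⊆ X) (hZc : ∀ z ∈ Z, #z ≤ μ)
    (hZcl : ∀ A ⊆ X, #A ≤ μ → ∃ z ∈ Z, A ⊆ z)
    (hLim : ∀ (ι : Type u) [LinearOrder ι] [WellFoundedLT ι] [Nonempty ι], #ι ≤ Order.succ ν →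
      ∀ z : ι → Set C, Monotone z → (∀ i, z i ∈ Z) → ∀ f : C → C,
        (∀ i, ∃ g ∈ M.G, ∀ a ∈ z i, g a = f a) → ∃ g ∈ M.G, ∀ i, ∀ a ∈ z i, g a = f a)
    (hDens : ∀ E : Set C, #E ≤ θ → ∀ s ⊆ X, #s ≤ μ →
      ∃ g ∈ M.G, (∀ b ∈ s, g b = b) ∧ ∃ z ∈ Z, s ⊆ z ∧ M.Isol z X (g '' E))
    (Y : Set (Set C)) (hYX : ∀ s ∈ Y, s ⊆ X) (hYc : ∀ s ∈ Y, #s ≤ θ)
    (hRed : ∀ E : Set C, #E ≤ θ → (∃ z ∈ Z, M.Isol z X E) → ∀ A ⊆ X, #A ≤ θ →
      ∃ s ∈ Y, A ⊆ s ∧ ∀ e ⊆ E, #e ≤ ν → ∃ b ⊆ s, #b ≤ β ∧ M.Isol b X e)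
    (K : Set (Set C)) (hKc : ∀ R ∈ K, #R ≤ θ)
    (hKG : ∀ g ∈ M.G, ∀ R ∈ K, (g : C → C) '' R ∈ K)
    (hKex : ∀ E : Set C, #E ≤ θ → ∃ R ∈ K, E ⊆ R) {A₀ : Set C} (hA₀ : A₀ ⊆ X) (hA₀c : #A₀ ≤ θ) :
    ∃ R s : (Order.succ ν).ord.ToType → Set C, Monotone R ∧ Monotone s ∧ (∀ i, R i ∈ K) ∧
      (∀ i, s i ∈ Y) ∧ (∀ i, A₀ ⊆ s i) ∧ (⋃ i, s i) ⊆ (⋃ i, R i) ∧
      ∀ E ⊆ ⋃ i, R i, #E ≤ ν → ∃ b ⊆ ⋃ i, s i, #b ≤ β ∧ M.Isol b X E := by
  classical
  have hθ : ℵ₀ ≤ θ := (hν.trans (Order.le_succ ν)).trans hνθ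
  have hμ : ℵ₀ ≤ μ := hθ.trans hθμ
  let W : Type u := (Order.succ ν).ord.ToType
  have hW : #W = Order.succ ν := mk_ord_toType _
  have hWi : ∀ i : W, #(Iio i) ≤ ν := fun i => by
    have h := mk_Iio_lt (α := (Order.succ ν).ord.ToType) i (by simp)
    rw [mk_ord_toType] at h
    exact Order.lt_succ_iff.1 h
  have : Nonempty (Stg C) := ⟨⟨∅, ∅, ∅, 1⟩⟩
  let P : W → (W → Stg C) → Prop := fun i d => (d i).Q ∈ Z ∧ (d i).s ∈ Y ∧ (d i).s ⊆ (d i).Q ∧
    (d i).R ∈ K ∧ (d i).f ∈ M.G ∧ A₀ ⊆ (d i).s ∧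
    (∀ e ⊆ (d i).R, #e ≤ ν →
      ∃ b ⊆ (d i).s, #b ≤ β ∧ M.Isol b X (((d i).f⁻¹ : Equiv.Perm C) '' e)) ∧
    ∀ k < i, (d k).Q ⊆ (d i).Q ∧ (d k).s ⊆ (d i).s ∧ (d k).R ⊆ (d i).R ∧
      (∀ a ∈ (d k).Q, (d i).f a = (d k).f a) ∧ (d k).f '' (d k).s ⊆ (d i).R
  obtain ⟨d, hd⟩ := exists_rec P (by
    rintro i d d' hdd ⟨h1, h2, h3, h4, h5, h6, h7, h8⟩
    have hi : d i = d' i := hdd i le_rfl
    have hk : ∀ k < i, d k = d' k := fun k hk => hdd k hk.le
    refine ⟨hi ▸ h1, hi ▸ h2, hi ▸ h3, hi ▸ h4, hi ▸ h5, hi ▸ h6, hi ▸ h7, fun k hki => ?_⟩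
    rw [← hi, ← hk k hki]
    exact h8 k hki) (by
    intro i d hP
    -- the movement below `i`
    obtain ⟨F, hFG, hFk⟩ : ∃ g ∈ M.G, ∀ k < i, ∀ a ∈ (d k).Q, g a = (d k).f a := by
      by_cases hi : Nonempty (Iio i)
      · have hmono : Monotone fun k : Iio i => (d k).Q := by
          intro k k' hkk
          rcases hkk.lt_or_eq with h | h
          · exact ((hP k' k'.2).2.2.2.2.2.2.2 k h).1
          · rw [h]
        let f : C → C := fun a => if ha : ∃ k : Iio i, a ∈ (d k).Q then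
          (d ha.choose).f a else a
        have hf : ∀ k : Iio i, ∀ a ∈ (d k).Q, f a = (d k).f a := by
          intro k a ha
          have hex' : ∃ k : Iio i, a ∈ (d k).Q := ⟨k, ha⟩
          have h1 : f a = (d hex'.choose).f a := dif_pos hex'
          rw [h1]
          have hc := hex'.choose_spec
          rcases lt_trichotomy (hex'.choose : Iio i) k with h | h | h
          · exact (((hP k k.2).2.2.2.2.2.2.2 _ h).2.2.2.1 a hc).symm
          · rw [h]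
          · exact ((hP _ hex'.choose.2).2.2.2.2.2.2.2 k h).2.2.2.1 a ha
        obtain ⟨g, hg, hgf⟩ := hLim (Iio i) ((hWi i).trans (Order.le_succ ν))
          (fun k : Iio i => (d k).Q) hmono (fun k => (hP k k.2).1) f fun k =>
            ⟨(d k).f, (hP k k.2).2.2.2.2.1, fun a ha => (hf k a ha).symm⟩
        exact ⟨g, hg, fun k hk a ha => by rw [hgf ⟨k, hk⟩ a ha, hf ⟨k, hk⟩ a ha]⟩
      · exact ⟨1, M.G.one_mem, fun k hk => absurd ⟨⟨k, hk⟩⟩ hi⟩
    -- sizes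
    have hcQ : #(⋃ k : Iio i, (d k).Q : Set C) ≤ μ := by
      refine (mk_iUnion_le _).trans ((mul_le_mul' (((hWi i).trans (Order.le_succ ν)).trans
        (hνθ.trans hθμ)) (ciSup_le' fun k : Iio i => hZc _ (hP k k.2).1)).trans
        (mul_eq_self hμ).le)
    have hcs : #(⋃ k : Iio i, (d k).s : Set C) ≤ θ := by
      refine (mk_iUnion_le _).trans ((mul_le_mul' (((hWi i).trans (Order.le_succ ν)).trans
        hνθ) (ciSup_le' fun k : Iio i => hYc _ (hP k k.2).2.1)).trans (mul_eq_self hθ).le)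
    have hcR : #(⋃ k : Iio i, (d k).R : Set C) ≤ θ := by
      refine (mk_iUnion_le _).trans ((mul_le_mul' (((hWi i).trans (Order.le_succ ν)).trans
        hνθ) (ciSup_le' fun k : Iio i => hKc _ (hP k k.2).2.2.2.1)).trans (mul_eq_self hθ).le)
    have hsX : A₀ ∪ (⋃ k : Iio i, (d k).s) ⊆ X := union_subset hA₀
      (iUnion_subset fun k : Iio i => hYX _ (hP k k.2).2.1)
    have hsXc : #(A₀ ∪ (⋃ k : Iio i, (d k).s) : Set C) ≤ θ :=
      (mk_union_le _ _).trans ((add_le_add hA₀c hcs).trans (add_eq_self hθ).le)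
    -- the next model
    obtain ⟨R, hRK, hR⟩ := hKex ((⋃ k : Iio i, (d k).R) ∪ ⋃ k : Iio i, (F '' (d k).s)) (by
      refine (mk_union_le _ _).trans ((add_le_add hcR ?_).trans (add_eq_self hθ).le)
      rw [← image_iUnion]
      exact mk_image_le.trans hcs)
    -- the next movement
    obtain ⟨g, hg, hgs, z, hz, hsz, hzi⟩ := hDens (((F⁻¹ : Equiv.Perm C) : C → C) '' R)
      (mk_image_le.trans (hKc R hRK)) (⋃ k : Iio i, (d k).Q)
      (iUnion_subset fun k : Iio i => hZX _ (hP k k.2).1) hcQ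
    -- the small trace
    obtain ⟨s, hsY, hs, hsR⟩ := hRed _ (mk_image_le.trans (mk_image_le.trans (hKc R hRK)))
      ⟨z, hz, hzi⟩ _ hsX hsXc
    obtain ⟨Q, hQ, hQz⟩ := hZcl (z ∪ s) (union_subset (hZX z hz) (hYX s hsY))
      ((mk_union_le _ _).trans ((add_le_add (hZc z hz) ((hYc s hsY).trans hθμ)).trans
        (add_eq_self hμ).le))
    refine ⟨⟨Q, s, R, F * g⁻¹⟩, ?_⟩
    have hui : update d i (⟨Q, s, R, F * g⁻¹⟩ : Stg C) i = ⟨Q, s, R, F * g⁻¹⟩ := update_self i _ d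
    have huk : ∀ k < i, update d i (⟨Q, s, R, F * g⁻¹⟩ : Stg C) k = d k :=
      fun k hk => update_of_ne hk.ne _ d
    have hfix : ∀ k < i, ∀ a ∈ (d k).Q, (F * g⁻¹ : Equiv.Perm C) a = (d k).f a := by
      intro k hk a ha
      rw [Equiv.Perm.mul_apply, fix_inv (hgs a (mem_iUnion.2 ⟨⟨k, hk⟩, ha⟩)), hFk k hk a ha]
    refine ⟨?_, ?_, ?_, ?_, ?_, ?_, ?_, ?_⟩
    · rw [hui]
      exact hQ
    · rw [hui]
      exact hsY
    · rw [hui]
      exact subset_union_right.trans hQz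
    · rw [hui]
      exact hRK
    · rw [hui]
      exact M.G.mul_mem hFG (M.G.inv_mem hg)
    · rw [hui]
      exact subset_union_left.trans hs
    · rw [hui]
      intro e he hec
      have h1 : (((F * g⁻¹)⁻¹ : Equiv.Perm C) : C → C) '' e =
          g '' (((F⁻¹ : Equiv.Perm C) : C → C) '' e) := by
        rw [mul_inv_rev, inv_inv, ← image_comp]
        rfl
      change ∃ b ⊆ s, #b ≤ β ∧ M.Isol b X ((((F * g⁻¹)⁻¹ : Equiv.Perm C) : C → C) '' e)
      rw [h1]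
      exact hsR _ (image_mono (image_mono he)) (mk_image_le.trans (mk_image_le.trans hec))
    · intro k hk
      rw [hui, huk k hk]
      refine ⟨?_, ?_, ?_, hfix k hk, ?_⟩
      · exact ((subset_iUnion (fun k : Iio i => (d k).Q) ⟨k, hk⟩).trans hsz).trans
          (subset_union_left.trans hQz)
      · exact (subset_iUnion (fun k : Iio i => (d k).s) ⟨k, hk⟩).trans (subset_union_right.trans hs)
      · exact (subset_iUnion (fun k : Iio i => (d k).R) ⟨k, hk⟩).trans (subset_union_left.trans hR)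
      · rintro _ ⟨a, ha, rfl⟩
        refine hR (Or.inr (mem_iUnion.2 ⟨⟨k, hk⟩, a, ha, ?_⟩))
        exact hFk k hk a ((hP k hk).2.2.1 ha))
  -- the limit movement
  have hWne : Nonempty W := by
    have h := exists_gt_succ hν ∅ (by simp)
    exact ⟨h.choose⟩
  have hmonoQ : Monotone fun k : W => (d k).Q := by
    intro k k' hkk
    rcases hkk.lt_or_eq with h | h
    · exact ((hd k').2.2.2.2.2.2.2 k h).1
    · rw [h]
  have hmonoR : Monotone fun k : W => (d k).R := by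
    intro k k' hkk
    rcases hkk.lt_or_eq with h | h
    · exact ((hd k').2.2.2.2.2.2.2 k h).2.2.1
    · rw [h]
  have hmonos : Monotone fun k : W => (d k).s := by
    intro k k' hkk
    rcases hkk.lt_or_eq with h | h
    · exact ((hd k').2.2.2.2.2.2.2 k h).2.1
    · rw [h]
  obtain ⟨F, hFG, hF⟩ : ∃ g ∈ M.G, ∀ k : W, ∀ a ∈ (d k).Q, g a = (d k).f a := by
    let f : C → C := fun a => if ha : ∃ k : W, a ∈ (d k).Q then (d ha.choose).f a else a
    have hf : ∀ k : W, ∀ a ∈ (d k).Q, f a = (d k).f a := by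
      intro k a ha
      have hex' : ∃ k : W, a ∈ (d k).Q := ⟨k, ha⟩
      have h1 : f a = (d hex'.choose).f a := dif_pos hex'
      rw [h1]
      have hc := hex'.choose_spec
      rcases lt_trichotomy (hex'.choose : W) k with h | h | h
      · exact (((hd k).2.2.2.2.2.2.2 _ h).2.2.2.1 a hc).symm
      · rw [h]
      · exact ((hd _).2.2.2.2.2.2.2 k h).2.2.2.1 a ha
    obtain ⟨g, hg, hgf⟩ := hLim W hW.le (fun k : W => (d k).Q) hmonoQ (fun k => (hd k).1) f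
      fun k => ⟨(d k).f, (hd k).2.2.2.2.1, fun a ha => (hf k a ha).symm⟩
    exact ⟨g, hg, fun k a ha => by rw [hgf k a ha, hf k a ha]⟩
  refine ⟨fun i => ((F⁻¹ : Equiv.Perm C) : C → C) '' (d i).R, fun i => (d i).s,
    fun i j hij => image_mono (hmonoR hij), hmonos,
    fun i => hKG _ (M.G.inv_mem hFG) _ (hd i).2.2.2.1, fun i => (hd i).2.1,
    fun i => (hd i).2.2.2.2.2.1, ?_, ?_⟩
  · refine iUnion_subset fun k => fun a ha => ?_
    obtain ⟨i, hi⟩ := exists_gt_succ hν {k} (by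
      rw [mk_singleton]
      exact one_le_aleph0.trans hν)
    refine mem_iUnion.2 ⟨i, F a, ?_, inv_ap F a⟩
    rw [hF k a ((hd k).2.2.1 ha)]
    exact ((hd i).2.2.2.2.2.2.2 k (hi k rfl)).2.2.2.2 (mem_image_of_mem _ ha)
  · intro E hE hEc
    have h1 : ∀ e : E, ∃ i : W, (e : C) ∈ ((F⁻¹ : Equiv.Perm C) : C → C) '' (d i).R :=
      fun e => mem_iUnion.1 (hE e.2)
    choose j hj using h1
    obtain ⟨i, hi⟩ := exists_gt_succ hν (range j) (mk_range_le.trans hEc)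
    have hFE : F '' E ⊆ (d i).R := by
      rintro _ ⟨e, he, rfl⟩
      obtain ⟨r, hr, hre⟩ := hj ⟨e, he⟩
      have h2 : F e = r := by
        change ((F⁻¹ : Equiv.Perm C) : C → C) r = e at hre
        rw [← hre, ap_inv]
      rw [h2]
      exact hmonoR (hi _ (mem_range_self _)).le hr
    obtain ⟨b, hbs, hbc, hb⟩ := (hd i).2.2.2.2.2.2.1 _ hFE (mk_image_le.trans hEc)
    refine ⟨b, hbs.trans (subset_iUnion (fun i => (d i).s) i), hbc, ?_⟩
    have h3 := hb.smul (k := F⁻¹ * (d i).f) (M.G.mul_mem (M.G.inv_mem hFG) (hd i).2.2.2.2.1)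
      (fun x hx => by
        rw [Equiv.Perm.mul_apply, ← hF i x ((hd i).2.2.1 (hbs hx)), inv_ap])
    have h4 : ((F⁻¹ * (d i).f : Equiv.Perm C) : C → C) ''
        ((((d i).f⁻¹ : Equiv.Perm C) : C → C) '' (F '' E)) = E := by
      have h5 : ∀ x, (F⁻¹ * (d i).f : Equiv.Perm C) ((d i).f⁻¹ (F x)) = x := fun x => by
        rw [Equiv.Perm.mul_apply, ap_inv, inv_ap]
      ext y
      constructor
      · rintro ⟨_, ⟨_, ⟨x, hx, rfl⟩, rfl⟩, rfl⟩
        rw [h5]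
        exact hx
      · intro hy
        exact ⟨_, ⟨_, ⟨y, hy, rfl⟩, rfl⟩, h5 y⟩
    rwa [h4] at h3

end Vale.Agent.P307.R2.H950
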